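import Vale.Agent.P014Y.F.St
import Vale.Agent.P014U.X4F.En.Rep
import Vale.Agent.P004Z.EF.All
import Vale.Agent.P004Z.Ar.Unf
import Vale.Agent.P004M.TE.All
import Vale.Agent.P004S.Lt

/-! # P014Y (frame), row CRV: the curves, the bad primes and the places exist -/

set_option linter.all false

noncomputable section

namespace Vale.Agent.P014Y.F

open NumberField Matrix
open Vale.Agent.P014U
open Vale.Agent.P022 (Qb GQ IsFrob)
open Vale.Agent.P022D.W (dec)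
open Vale.Agent.P022E.GW (Ov)
open Vale.Agent.P004S (lt ex_conj)
open X4S (Rep Tr Pl pl_ex)
open X4M.TE (rep)

variable [Pp]

namespace Cr

variable {A B : ℤ} (h : 4 * A ^ 3 + 27 * B ^ 2 ≠ 0)

/-- the trace of Frobenius -/
theorem tr_al {l : ℕ} (hl : l.Prime) (hg : ¬ (l : ℤ) ∣ 2 * pp * (4 * A ^ 3 + 27 * B ^ 2)) {g : GQ}
    (k : IsFrob l g) : (X4M.TE.mt (hq h) g).trace = P004Z.EF.al A B l := by
  have : Fact l.Prime := ⟨hl⟩
  rw [show P004Z.EF.al A B l = _ from P004M.TE.al_eq (X4M.TE.hg_two hg),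
    (X4M.TE.frob_mt (hq h) hg k).1]
  simp

theorem res {g : GQ} (t : Tr (rep (hq h)) 1 g) :
    (X4M.TE.mt (hq h) g).map PadicInt.toZMod = 1 := by
  ext i j
  have k : ‖(X4M.TE.mt (hq h) g - 1) i j‖ < 1 := by
    refine lt_of_eq_of_lt ?_ (X4S.lt_one_iff.2 ((t i j).trans_eq (pow_one _)))
    rw [Matrix.sub_apply, Matrix.sub_apply, X4F.En.mt_rep, PadicInt.norm_def, PadicInt.coe_sub, one_apply,
      one_apply]
    split_ifs <;> rfl
  have z : PadicInt.toZMod ((X4M.TE.mt (hq h) g - 1) i j) = 0 := by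
    rw [← RingHom.mem_ker, PadicInt.ker_toZMod, IsLocalRing.mem_maximalIdeal]
    exact PadicInt.mem_nonunits.2 k
  rw [Matrix.sub_apply, map_sub, sub_eq_zero] at z
  rw [map_apply, z, one_apply, one_apply]
  split_ifs <;> simp

/-- a prime which splits completely in the field of the points of order `pp` -/
theorem aux {r : X4S.Rp} {S : Finset ℕ} (hr : Rep r S) :
    ∃ s : ℕ, s.Prime ∧ s ≠ pp ∧ ∀ P, Ov s P → ∀ g ∈ dec P, Tr r 1 g := by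
  obtain ⟨s, φ, h1, h2, ⟨Q, q1, q2, q3⟩, m⟩ := P022K.Cheb.exists_fr (hr.Kn_open 1) (one_mem _) S
  refine ⟨s, h1, hr.ne_two h2, fun P o g hg => ?_⟩
  obtain ⟨t, -, k⟩ := ex_conj ⟨h1, q1, q2⟩ o
  have := lt.dec_le ⟨h1, q1, q2⟩ q3 (hr.Kn_open 1) m (hr.Kn_uns 1 s _ ⟨h1, q1, q2⟩ h2) (k g hg)
  simpa [mul_assoc] using hr.tr_conj this t

/-- one curve, for every large list of primes -/
theorem one (pl : Pl) {N G a A B w Λ F x y} (rn : P004N.RN N G a)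
    (hp : P004Z.EF.Par N a A B w Λ F x y) : ∃ S₁ : Finset ℕ, (∀ l ∈ S₁, l.Prime) ∧
    ∀ T : Finset ℕ, (∀ l ∈ T, l.Prime) → S₁ ⊆ T → ∃ e : Crv,
      (e.N = N ∧ e.G = G ∧ e.a = a ∧ e.A = A ∧ e.B = B) ∧
      e.S = T.toList ∧ e.P = pl.P ∧ e.τ = pl.τ := by
  classical
  obtain ⟨S, hr, hS⟩ := X4F.En.ex_rep (hq hp.disc)
  obtain ⟨s, s1, s2, s3⟩ := aux hr
  refine ⟨insert s (insert 2 (S.filter Nat.Prime ∪ (N.primeFactors ∪ hp.mat.toFinset))),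
    fun l k => ?_, fun T pr sub => ?_⟩
  · simp only [Finset.mem_insert, Finset.mem_union, Finset.mem_filter, Set.Finite.mem_toFinset] at k
    rcases k with rfl | rfl | k | k | k
    exacts [s1, Nat.prime_two, k.2, Nat.prime_of_mem_primeFactors k, k.1]
  have up : ∀ l, l = s ∨ l = 2 ∨ (l ∈ S ∧ l.Prime) ∨ l ∈ N.primeFactors ∨
      l.Prime ∧ P004Z.EF.al A B l ≠ a l → l ∈ T.toList := fun l k => Finset.mem_toList.2 (sub (by
    simpa only [Finset.mem_insert, Finset.mem_union, Finset.mem_filter,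
      Set.Finite.mem_toFinset, Set.mem_ofPred_eq] using k))
  have pr' : ∀ l ∈ T.toList, l.Prime := fun l k => pr l (Finset.mem_toList.1 k)
  refine ⟨⟨N, G, a, A, B, w, Λ, F, x, y, rn, hp, T.toList, pl.P, pl.τ, T.nodup_toList,
    up 2 (.inr (.inl rfl)), up pp (.inr (.inr (.inl ⟨hr.two, pp_prime⟩))),
    fun p k => pl.ov p (pr' p k), fun p k => pl.gn p (pr' p k), fun l hl k => ?_,
    ⟨s, up s (.inl rfl), s2, fun g hg => res hp.disc (s3 _ (pl.ov s s1) g hg)⟩⟩,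
    ⟨rfl, rfl, rfl, rfl, rfl⟩, rfl, rfl, rfl⟩
  have c := hS l hl fun m => k (up l (.inr (.inr (.inl ⟨m, hl⟩))))
  refine ⟨fun m => k (up l (.inr (.inr (.inr (.inl (Nat.mem_primeFactors.2 ⟨hl, m, rn.pos.ne'⟩)))))),
    fun m => c (m.mul_left _), fun g hg => ?_⟩
  rw [tr_al hp.disc hl c hg]
  exact congrArg _ (by_contra fun m => k (up l (.inr (.inr (.inr (.inr ⟨hl, m⟩))))))

end Cr

/-- **row CRV with more**: the equations match the forms, the tame generators agree -/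
theorem crv' (N G a N' G' a') (h : P004N.RN N G a) (h' : P004N.RN N' G' a') : ∃ A B A' B' : ℤ,
    (4 * A ^ 3 + 27 * B ^ 2 ≠ 0 ∧ {p : ℕ | p.Prime ∧ P004Z.EF.al A B p ≠ a p}.Finite) ∧
    (4 * A' ^ 3 + 27 * B' ^ 2 ≠ 0 ∧ {p : ℕ | p.Prime ∧ P004Z.EF.al A' B' p ≠ a' p}.Finite) ∧
    ∀ S₀ : Finset ℕ, (∀ l ∈ S₀, l.Prime) → ∃ e e' : Crv,
      (e.N = N ∧ e.G = G ∧ e.a = a ∧ e.A = A ∧ e.B = B) ∧
      (e'.N = N' ∧ e'.G = G' ∧ e'.a = a' ∧ e'.A = A' ∧ e'.B = B') ∧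
      e'.S = e.S ∧ e'.P = e.P ∧ e'.τ = e.τ ∧ ∀ l ∈ S₀, l ∈ e.S := by
  classical
  obtain ⟨ε, hn⟩ := P004Z.Ar.nf_of_rn h
  obtain ⟨A, B, w, Λ, F, x, y, hp⟩ := P004Z.EF.par N G a ε hn
  obtain ⟨ε', hn'⟩ := P004Z.Ar.nf_of_rn h'
  obtain ⟨A', B', w', Λ', F', x', y', hp'⟩ := P004Z.EF.par N' G' a' ε' hn'
  refine ⟨A, B, A', B', ⟨hp.disc, hp.mat⟩, ⟨hp'.disc, hp'.mat⟩, fun S₀ h0 => ?_⟩
  obtain ⟨pl⟩ := pl_ex
  obtain ⟨S, p, k⟩ := Cr.one pl h hp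
  obtain ⟨S', p', k'⟩ := Cr.one pl h' hp'
  have pr : ∀ l ∈ S₀ ∪ (S ∪ S'), l.Prime := fun l m => (Finset.mem_union.1 m).elim (h0 l)
    fun m => (Finset.mem_union.1 m).elim (p l) (p' l)
  obtain ⟨e, a1, a2, a3, a4⟩ := k _ pr (Finset.subset_union_left.trans Finset.subset_union_right)
  obtain ⟨e', b1, b2, b3, b4⟩ := k' _ pr (Finset.subset_union_right.trans Finset.subset_union_right)
  exact ⟨e, e', a1, b1, b2.trans a2.symm, b3.trans a3.symm, b4.trans a4.symm,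
    fun l m => a2 ▸ Finset.mem_toList.2 (Finset.mem_union_left _ m)⟩

/-- **row CRV** -/
theorem crv : CRV := fun N G a N' G' a' h h' => by
  obtain ⟨A, B, A', B', -, -, k⟩ := crv' N G a N' G' a' h h'
  refine ⟨A, B, A', B', fun S₀ h0 => ?_⟩
  obtain ⟨e, e', a1, a2, a3, a4, -, a5⟩ := k S₀ h0
  exact ⟨e, e', a1, a2, a3, a4, a5⟩

end Vale.Agent.P014Y.F
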